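import Crest.Agent.Ulam.Defs

/-! (POS) positivity test. -/

set_option autoImplicit false
open Finset
open scoped InnerProductSpace

namespace Crest.Agent.Ulam

namespace Pos

/-- mean of the powers `u, …, u ^ n` -/
noncomputable def dk {B : Type} [Ring B] [Algebra ℝ B] (n : ℕ) (u : B) : B :=
  (n : ℝ)⁻¹ • ∑ j ∈ range n, u ^ (j + 1)

/-- logarithmic mean -/
noncomputable def av {B : Type} [Ring B] [Algebra ℝ B] (T : ℕ) (u : B) : B :=
  (T : ℝ)⁻¹ • ∑ t ∈ range T, dk (2 ^ t) u

theorem norm_mean_le {B : Type} [NormedRing B] [NormedAlgebra ℝ B] (n : ℕ) (g : ℕ → B) {c : ℝ}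
    (hc : 0 ≤ c) (h : ∀ i < n, ‖g i‖ ≤ c) : ‖(n : ℝ)⁻¹ • ∑ j ∈ range n, g j‖ ≤ c := by
  rcases Nat.eq_zero_or_pos n with rfl | hn
  · simpa using hc
  have hn' : (0 : ℝ) < n := by exact_mod_cast hn
  rw [norm_smul, norm_inv, Real.norm_natCast, inv_mul_le_iff₀ hn']
  refine (norm_sum_le _ _).trans ((sum_le_sum fun i hi => h i (mem_range.1 hi)).trans ?_)
  simp

theorem norm_dk_le {B : Type} [NormedRing B] [NormedAlgebra ℝ B] (n : ℕ) {u : B} (h : ‖u‖ ≤ 1) :
    ‖dk n u‖ ≤ 1 :=
  norm_mean_le n _ zero_le_one fun i _ =>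
    (norm_pow_le' u i.succ_pos).trans (pow_le_one₀ (norm_nonneg _) h)

theorem norm_av_le {B : Type} [NormedRing B] [NormedAlgebra ℝ B] (T : ℕ) {u : B} (h : ‖u‖ ≤ 1) :
    ‖av T u‖ ≤ 1 :=
  norm_mean_le T _ zero_le_one fun _ _ => norm_dk_le _ h

theorem im_dk {z : ℂ} (hz : ‖z‖ = 1) {n : ℕ} (hn : 0 < n) :
    |(dk n z).im| ≤ 10 * ((2 * (n * ‖1 - z‖)) / (1 + 2 * (n * ‖1 - z‖))) -
      10 * ((n * ‖1 - z‖) / (1 + n * ‖1 - z‖)) := by
  have hn' : (0 : ℝ) < n := by exact_mod_cast hn
  have h0 : |(dk n z).im| ≤ 1 := (Complex.abs_im_le_norm _).trans (norm_dk_le n hz.le)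
  have hp : ∀ j : ℕ, ‖z ^ j - 1‖ ≤ j * ‖1 - z‖ := by
    intro j
    induction j with
    | zero => simp
    | succ j ih =>
      have : z ^ (j + 1) - 1 = z * (z ^ j - 1) - (1 - z) := by ring
      rw [this]
      refine (norm_sub_le _ _).trans ?_
      rw [norm_mul, hz]
      push_cast
      linarith
  have h1 : |(dk n z).im| ≤ n * ‖1 - z‖ := by
    have e : dk n z = (n : ℝ)⁻¹ • ∑ j ∈ range n, (z ^ (j + 1) - 1) + 1 := by
      rw [dk, sum_sub_distrib, smul_sub]
      simp [hn.ne']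
    have : (dk n z).im = ((n : ℝ)⁻¹ • ∑ j ∈ range n, (z ^ (j + 1) - 1)).im := by
      rw [e, Complex.add_im, Complex.one_im, add_zero]
    rw [this]
    refine (Complex.abs_im_le_norm _).trans (norm_mean_le n _ (by positivity) fun i hi => ?_)
    refine (hp _).trans ?_
    gcongr
    exact_mod_cast hi
  have h2 : |(dk n z).im| * (n * ‖1 - z‖) ≤ 2 := by
    have e : (∑ j ∈ range n, z ^ (j + 1)) * (1 - z) = z - z ^ (n + 1) := by
      have := mul_neg_geom_sum z n
      simp only [pow_succ, ← sum_mul]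
      linear_combination z * this
    have e2 : ‖dk n z‖ * (n * ‖1 - z‖) = ‖z - z ^ (n + 1)‖ := by
      rw [← e, dk, norm_smul, norm_inv, Real.norm_natCast, norm_mul]
      field_simp
    calc _ ≤ ‖dk n z‖ * (n * ‖1 - z‖) := by gcongr; exact Complex.abs_im_le_norm _
      _ ≤ ‖z‖ + ‖z ^ (n + 1)‖ := by rw [e2]; exact norm_sub_le _ _
      _ = 2 := by rw [norm_pow, hz]; norm_num
  have hy : 0 ≤ n * ‖1 - z‖ := by positivity
  have ha := abs_nonneg (dk n z).im
  generalize n * ‖1 - z‖ = y at *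
  generalize |(dk n z).im| = a at *
  have e : 10 * (2 * y / (1 + 2 * y)) - 10 * (y / (1 + y)) = 10 * y / ((1 + y) * (1 + 2 * y)) := by
    field_simp
    ring
  rw [e, le_div_iff₀ (by positivity)]
  nlinarith [mul_le_mul_of_nonneg_right h2 hy, mul_le_mul_of_nonneg_right h0 hy]

theorem im_av {z : ℂ} (hz : ‖z‖ = 1) (T : ℕ) : |(av T z).im| ≤ 10 / T := by
  have h1 : ∑ t ∈ range T, |(dk (2 ^ t) z).im| ≤ 10 := by
    let H : ℕ → ℝ := fun t => 10 * (((2 ^ t : ℕ) * ‖1 - z‖) / (1 + (2 ^ t : ℕ) * ‖1 - z‖))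
    have h2 : ∀ t, |(dk (2 ^ t) z).im| ≤ H (t + 1) - H t := by
      intro t
      refine (im_dk hz (by positivity)).trans (le_of_eq ?_)
      simp only [H, pow_succ]
      push_cast
      ring
    refine (sum_le_sum fun t _ => h2 t).trans ?_
    rw [sum_range_sub]
    have h3 : 0 ≤ H 0 := by positivity
    have h4 : H T ≤ 10 * 1 := by
      simp only [H]
      gcongr
      rw [div_le_one (by positivity)]
      linarith
    linarith
  rw [av, Complex.smul_im, Complex.im_sum, smul_eq_mul, abs_mul, abs_inv, Nat.abs_cast,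
    div_eq_inv_mul]
  gcongr
  exact (abs_sum_le_sum_abs _ _).trans h1

theorem norm_av_sub {B : Type} [CStarAlgebra B] {u : B} (hu : u ∈ unitary B) (T : ℕ) :
    ‖av T u - star (av T u)‖ ≤ 20 / T := by
  have hn : IsStarNormal u := isStarNormal_of_mem_unitary hu
  have h1 : cfc (fun z : ℂ => av T z) u = av T u := by
    have h2 := cfc_polynomial (av T (Polynomial.X : Polynomial ℂ)) u
    have h3 : (fun z : ℂ => av T z) = fun z => (av T (Polynomial.X : Polynomial ℂ)).eval z := by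
      funext z
      simp [av, dk, Polynomial.eval_finset_sum]
    rw [h3, h2]
    have h4 : ∀ (r : ℝ) (p : Polynomial ℂ), Polynomial.aeval u (r • p) =
        r • Polynomial.aeval u p := fun r p =>
      (Polynomial.aeval u).toLinearMap.map_smul_of_tower r p
    simp only [av, dk, map_sum, map_pow, Polynomial.aeval_X, h4]
  have hc : Continuous fun z : ℂ => av T z := by
    unfold av dk
    fun_prop
  rw [← h1, ← cfc_star, ← cfc_sub _ _ u]
  refine norm_cfc_le (by positivity) fun z hz => ?_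
  have hz' : ‖z‖ = 1 := by simpa using spectrum.subset_circle_of_unitary hu hz
  have := im_av hz' T
  rw [Complex.star_def, Complex.sub_conj]
  simp only [Complex.ofReal_mul, Complex.ofReal_ofNat, norm_mul, Complex.norm_ofNat,
    Complex.norm_real, Real.norm_eq_abs, Complex.norm_I, mul_one]
  calc 2 * |(av T z).im| ≤ 2 * (10 / T) := by gcongr
    _ = _ := by ring

section Conv
variable {B : Type} [Ring B] [Algebra ℝ B] (u : Bool → B)

/-- `T` lies in the closed convex hull of the words of class `P` -/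
def Conv (P : List Bool → Prop) (T : B) : Prop :=
  ∀ (f : B →ₗ[ℝ] ℝ) (r : ℝ), (∀ w, P w → f (w.map u).prod ≤ r) → f T ≤ r

theorem Conv.mul {P Q R : List Bool → Prop} {S T : B} (hS : Conv u P S) (hT : Conv u Q T)
    (h : ∀ w w', P w → Q w' → R (w ++ w')) : Conv u R (S * T) := by
  intro f r hf
  refine hS (f ∘ₗ LinearMap.mulRight ℝ T) r fun w hw => ?_
  refine hT (f ∘ₗ LinearMap.mulLeft ℝ (w.map u).prod) r fun w' hw' => ?_
  simpa using hf _ (h w w' hw hw')

theorem Conv.mean {P : List Bool → Prop} {n : ℕ} (hn : 0 < n) {g : ℕ → B}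
    (h : ∀ i < n, Conv u P (g i)) : Conv u P ((n : ℝ)⁻¹ • ∑ j ∈ range n, g j) := by
  intro f r hf
  have hn' : (0 : ℝ) < n := by exact_mod_cast hn
  rw [map_smul, map_sum, smul_eq_mul, inv_mul_le_iff₀ hn']
  refine (sum_le_sum fun i hi => h i (mem_range.1 hi) f r hf).trans ?_
  simp

theorem conv_av (x : Bool) {T : ℕ} (hT : 0 < T) :
    Conv u (fun w => ∃ j, j < 2 ^ T ∧ w = List.replicate (j + 1) x) (av T (u x)) := by
  refine Conv.mean u hT fun t ht => Conv.mean u (by positivity) fun j hj f r hf => ?_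
  have : j < 2 ^ T := hj.trans_le (Nat.pow_le_pow_right (by norm_num) ht.le)
  simpa using hf _ ⟨j, this, rfl⟩

end Conv

theorem occ_false (j : ℕ) (w : List Bool) : occ (List.replicate j false ++ w) = occ w := by
  induction j with
  | zero => rfl
  | succ j ih => simpa [List.replicate_succ, occ] using ih

theorem occ_true (j : ℕ) (w : List Bool) :
    occ (List.replicate (j + 1) true ++ false :: w) = occ w + 1 := by
  induction j with
  | zero => simp [occ]
  | succ j ih =>
    rw [List.replicate_succ, List.replicate_succ] at *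
    simpa [occ] using ih

theorem norm_pow_sub {B : Type} [NormedRing B] [NormOneClass B] {X Y : B} (hX : ‖X‖ ≤ 1)
    (hY : ‖Y‖ ≤ 1) (k : ℕ) : ‖X ^ k - Y ^ k‖ ≤ k * ‖X - Y‖ := by
  induction k with
  | zero => simp
  | succ k ih =>
    have e : X ^ (k + 1) - Y ^ (k + 1) = X * (X ^ k - Y ^ k) + (X - Y) * Y ^ k := by
      rw [pow_succ', pow_succ']; noncomm_ring
    have h1 : ‖Y ^ k‖ ≤ 1 := (norm_pow_le _ _).trans (pow_le_one₀ (norm_nonneg _) hY)
    rw [e]
    refine (norm_add_le _ _).trans ((add_le_add (norm_mul_le _ _) (norm_mul_le _ _)).trans ?_)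
    push_cast
    nlinarith [norm_nonneg (X ^ k - Y ^ k), norm_nonneg (X - Y), norm_nonneg X,
      mul_le_mul_of_nonneg_right hX (norm_nonneg (X ^ k - Y ^ k)),
      mul_le_mul_of_nonneg_left h1 (norm_nonneg (X - Y))]

end Pos

open Pos in
theorem pos : PosStmt := by
  intro k κ hκ
  obtain ⟨T, hT⟩ := exists_nat_gt (40 * k / κ)
  have hT0 : (0 : ℝ) < T := lt_of_le_of_lt (by positivity) hT
  have hT1 : 0 < T := by exact_mod_cast hT0
  refine ⟨4 * 2 ^ T * k + 1, by positivity, fun H _ _ _ u hu Ω hΩ => ?_⟩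
  haveI : Nontrivial H := nontrivial_of_ne Ω 0 (by rintro rfl; simp at hΩ)
  by_contra hcon
  push Not at hcon
  set A := av T (u true) with hA
  set B := av T (u false) with hB
  have nA : ‖A‖ ≤ 1 := norm_av_le T (CStarRing.norm_of_mem_unitary (hu _)).le
  have nB : ‖B‖ ≤ 1 := norm_av_le T (CStarRing.norm_of_mem_unitary (hu _)).le
  have cX : Conv u (fun w => w.length ≤ 4 * 2 ^ T ∧ ∀ w', occ (w ++ w') = occ w' + 1)
      (B * A * (A * B)) := by
    refine Conv.mul u (P := fun w => ∃ i j, i < 2 ^ T ∧ j < 2 ^ T ∧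
      w = List.replicate (i + 1) false ++ List.replicate (j + 1) true)
      (Q := fun w => ∃ i j, i < 2 ^ T ∧ j < 2 ^ T ∧
      w = List.replicate (i + 1) true ++ List.replicate (j + 1) false)
      (Conv.mul u (conv_av u false hT1) (conv_av u true hT1) ?_)
      (Conv.mul u (conv_av u true hT1) (conv_av u false hT1) ?_) ?_
    · rintro _ _ ⟨i, hi, rfl⟩ ⟨j, hj, rfl⟩
      exact ⟨i, j, hi, hj, rfl⟩
    · rintro _ _ ⟨i, hi, rfl⟩ ⟨j, hj, rfl⟩
      exact ⟨i, j, hi, hj, rfl⟩
    · rintro _ _ ⟨i, j, hi, hj, rfl⟩ ⟨i', j', hi', hj', rfl⟩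
      refine ⟨by simp; omega, fun w' => ?_⟩
      have e : List.replicate (i + 1) false ++ List.replicate (j + 1) true ++
          (List.replicate (i' + 1) true ++ List.replicate (j' + 1) false) ++ w' =
          List.replicate (i + 1) false ++ (List.replicate (j + 1 + i' + 1) true ++
            false :: (List.replicate j' false ++ w')) := by
        rw [add_assoc (j + 1), List.replicate_add (j + 1), List.replicate_succ (n := j')]
        simp only [List.append_assoc, List.cons_append]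
      rw [e, occ_false, occ_true, occ_false]
  have cP : ∀ k : ℕ, Conv u (fun w => w.length ≤ 4 * 2 ^ T * k ∧ occ w = k)
      ((B * A * (A * B)) ^ k) := by
    intro k
    induction k with
    | zero =>
      intro f r hf
      simpa using hf [] ⟨by simp, rfl⟩
    | succ k ih =>
      rw [pow_succ']
      refine Conv.mul u cX ih ?_
      rintro w w' ⟨h1, h2⟩ ⟨h3, h4⟩
      refine ⟨?_, by rw [h2, h4]⟩
      rw [List.length_append, mul_add]
      omega
  let f : (H →L[ℂ] H) →ₗ[ℝ] ℝ :=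
    { toFun := fun S => (⟪Ω, S Ω⟫_ℂ).re
      map_add' := fun S S' => by simp [inner_add_right]
      map_smul' := fun c S => by
        have : (c • S) Ω = (c : ℂ) • S Ω := rfl
        simp [this, inner_smul_right] }
  have h1 : f ((B * A * (A * B)) ^ k) ≤ -κ :=
    cP k f _ fun w hw => (hcon w (hw.1.trans (Nat.le_succ _)) hw.2).le
  have h2 : 0 ≤ f ((star (A * B) * (A * B)) ^ k) :=
    ((ContinuousLinearMap.nonneg_iff_isPositive _).1
      (CStarAlgebra.pow_nonneg (star_mul_self_nonneg (A * B)) k)).re_inner_nonneg_right Ω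
  have nAB : ‖A * B‖ ≤ 1 := (norm_mul_le _ _).trans (mul_le_one₀ nA (norm_nonneg _) nB)
  have nBA : ‖B * A‖ ≤ 1 := (norm_mul_le _ _).trans (mul_le_one₀ nB (norm_nonneg _) nA)
  have h3 : ‖star (A * B) * (A * B) - B * A * (A * B)‖ ≤ 40 / T := by
    have e : star (A * B) * (A * B) - B * A * (A * B) =
        -(((B - star B) * star A + B * (A - star A)) * (A * B)) := by
      rw [star_mul]; noncomm_ring
    have a1 := norm_av_sub (hu true) T
    have a2 := norm_av_sub (hu false) T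
    rw [← hA] at a1
    rw [← hB] at a2
    rw [e, norm_neg]
    refine (norm_mul_le _ _).trans ((mul_le_of_le_one_right (norm_nonneg _) nAB).trans ?_)
    refine (norm_add_le _ _).trans ((add_le_add (norm_mul_le _ _) (norm_mul_le _ _)).trans ?_)
    rw [norm_star]
    calc _ ≤ 20 / T * 1 + 1 * (20 / T : ℝ) := by gcongr
      _ = _ := by ring
  have h4 := norm_pow_sub (X := star (A * B) * (A * B)) (Y := B * A * (A * B))
    ((norm_mul_le _ _).trans (mul_le_one₀ (by rwa [norm_star]) (norm_nonneg _) nAB))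
    ((norm_mul_le _ _).trans (mul_le_one₀ nBA (norm_nonneg _) nAB)) k
  have h5 : ∀ S, f S ≤ ‖S‖ := fun S =>
    calc (⟪Ω, S Ω⟫_ℂ).re ≤ ‖⟪Ω, S Ω⟫_ℂ‖ := Complex.re_le_norm _
      _ ≤ ‖Ω‖ * ‖S Ω‖ := norm_inner_le_norm _ _
      _ ≤ ‖Ω‖ * (‖S‖ * ‖Ω‖) := by gcongr; exact S.le_opNorm _
      _ = ‖S‖ := by rw [hΩ]; ring
  have h6 := h5 ((star (A * B) * (A * B)) ^ k - (B * A * (A * B)) ^ k)
  rw [map_sub] at h6
  have h7 : (k : ℝ) * (40 / T) < κ := by
    rw [div_lt_iff₀ hκ] at hT
    rw [← mul_div_assoc, div_lt_iff₀ hT0]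
    linarith
  have h8 : (k : ℝ) * ‖star (A * B) * (A * B) - B * A * (A * B)‖ ≤ k * (40 / T) := by gcongr
  linarith

end Crest.Agent.Ulam
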